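import Mathlib

/-!
# P112, chapter (G): the substep groups

A finite family `c a` (`a ∈ T`) of nonempty finite sets of slopes, each of them isolated with
constant `A ≥ A2 ^ (m + 3)` (`#T ≤ m + 1`), splits into at least two groups with mutual distances
`≥ ρ` and diameters `≤ (2 m / A2) ρ`. Iteration gives the recursion principle `sub_rec`.
-/

open Finset

namespace Vale.Agent.P112.H491

section Groups

variable {ι κ : Type*} (s : ι → ℝ) (c : κ → Finset ι)

/-- two children are `τ`-linked -/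
def Lnk (τ : ℝ) (a b : κ) : Prop := ∃ i ∈ c a, ∃ j ∈ c b, |s i - s j| < τ

theorem Lnk.symm {τ : ℝ} {a b : κ} (h : Lnk s c τ a b) : Lnk s c τ b a := by
  obtain ⟨i, hi, j, hj, h⟩ := h
  exact ⟨j, hj, i, hi, by rwa [abs_sub_comm]⟩

theorem Lnk.mono {τ τ' : ℝ} {a b : κ} (h : Lnk s c τ a b) (hτ : τ ≤ τ') : Lnk s c τ' a b := by
  obtain ⟨i, hi, j, hj, h⟩ := h
  exact ⟨i, hi, j, hj, h.trans_le hτ⟩

/-- the threshold graph on the members of `T` -/
def grp (T : Finset κ) (τ : ℝ) : SimpleGraph T where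
  Adj a b := a ≠ b ∧ Lnk s c τ a b
  symm := ⟨fun _ _ h => ⟨h.1.symm, h.2.symm⟩⟩
  loopless := ⟨fun _ h => h.1 rfl⟩

theorem grp_mono (T : Finset κ) {τ τ' : ℝ} (h : τ ≤ τ') : grp s c T τ ≤ grp s c T τ' :=
  fun _ _ hab => ⟨hab.1, hab.2.mono s c h⟩

/-- distances along a walk -/
theorem walk_dist {T : Finset κ} {τ W : ℝ} 
    (hW : ∀ a ∈ T, ∀ i ∈ c a, ∀ i' ∈ c a, |s i - s i'| ≤ W) {a b : T}
    (p : (grp s c T τ).Walk a b) :
    ∀ i ∈ c a, ∀ j ∈ c b, |s i - s j| ≤ p.length * τ + (p.length + 1) * W := by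
  induction p with
  | nil => 
    intro i hi j hj
    simpa using hW _ (Subtype.property _) i hi j hj
  | @cons u v w hadj p ih =>
    intro i hi j hj
    obtain ⟨-, x, hx, y, hy, hxy⟩ :=
      (show u ≠ v ∧ ∃ i ∈ c u, ∃ j ∈ c v, |s i - s j| < τ from hadj)
    have h1 := hW _ u.2 i hi x hx
    have h2 := ih y hy j hj
    have h3 : |s i - s j| ≤ |s i - s x| + |s x - s y| + |s y - s j| := by
      calc |s i - s j| = |(s i - s x) + (s x - s y) + (s y - s j)| := by ring_nf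
        _ ≤ _ := abs_add_three _ _ _
    rw [SimpleGraph.Walk.length_cons]
    push_cast
    nlinarith

theorem reach_dist {T : Finset κ} {τ W : ℝ} {m : ℕ} (hm : T.card ≤ m + 1) (hτ : 0 ≤ τ) (h0 : 0 ≤ W)
    (hW : ∀ a ∈ T, ∀ i ∈ c a, ∀ i' ∈ c a, |s i - s i'| ≤ W) {a b : T}
    (h : (grp s c T τ).Reachable a b) :
    ∀ i ∈ c a, ∀ j ∈ c b, |s i - s j| ≤ m * τ + (m + 1) * W := by
  classical
  obtain ⟨p, hp⟩ := h.exists_isPath
  intro i hi j hj
  have h1 := walk_dist s c hW p i hi j hj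
  have h2 : p.length ≤ m := by
    have := hp.length_lt
    rw [Fintype.card_coe] at this
    omega
  have h3 : (p.length : ℝ) ≤ m := by exact_mod_cast h2
  nlinarith

/-- number of components -/
noncomputable def ncomp (T : Finset κ) (τ : ℝ) : ℕ := Nat.card (grp s c T τ).ConnectedComponent

/-- the map of components for `τ ≤ τ'` -/
def cmap (T : Finset κ) {τ τ' : ℝ} (h : τ ≤ τ') :
    (grp s c T τ).ConnectedComponent → (grp s c T τ').ConnectedComponent :=
  SimpleGraph.ConnectedComponent.map (SimpleGraph.Hom.ofLE (grp_mono s c T h))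

theorem cmap_surj (T : Finset κ) {τ τ' : ℝ} (h : τ ≤ τ') :
    Function.Surjective (cmap s c T h) := by
  intro x
  induction x using SimpleGraph.ConnectedComponent.ind with
  | _ v => exact ⟨(grp s c T τ).connectedComponentMk v, rfl⟩

instance (T : Finset κ) (τ : ℝ) : Finite (grp s c T τ).ConnectedComponent :=
  Finite.of_surjective (fun v => (grp s c T τ).connectedComponentMk v) (by
    intro x
    induction x using SimpleGraph.ConnectedComponent.ind with
    | _ v => exact ⟨v, rfl⟩)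

theorem ncomp_anti (T : Finset κ) {τ τ' : ℝ} (h : τ ≤ τ') : ncomp s c T τ' ≤ ncomp s c T τ :=
  Nat.card_le_card_of_surjective _ (cmap_surj s c T h)

theorem ncomp_le (T : Finset κ) (τ : ℝ) : ncomp s c T τ ≤ T.card := by
  have : Function.Surjective (fun v : T => (grp s c T τ).connectedComponentMk v) := by
    intro x
    induction x using SimpleGraph.ConnectedComponent.ind with
    | _ v => exact ⟨v, rfl⟩
  have h := Nat.card_le_card_of_surjective _ this
  have h2 : Nat.card T = T.card := by simp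
  rw [← h2]
  exact h

/-- equal numbers of components: the components are the same -/
theorem reach_of_ncomp (T : Finset κ) {τ τ' : ℝ} (h : τ ≤ τ')
    (he : ncomp s c T τ = ncomp s c T τ') {a b : T} (hab : (grp s c T τ').Reachable a b) :
    (grp s c T τ).Reachable a b := by
  have hinj : Function.Injective (cmap s c T h) := by
    have hb : Function.Bijective (cmap s c T h) := by
      have hsu := (cmap_surj s c T h)
      have i1 : Fintype (grp s c T τ).ConnectedComponent := Fintype.ofFinite _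
      have i2 : Fintype (grp s c T τ').ConnectedComponent := Fintype.ofFinite _
      rw [Fintype.bijective_iff_surjective_and_card]
      refine ⟨hsu, ?_⟩
      rw [← Nat.card_eq_fintype_card, ← Nat.card_eq_fintype_card]
      exact he
    exact hb.1
  rw [← SimpleGraph.ConnectedComponent.eq] 
  apply hinj
  show (grp s c T τ').connectedComponentMk _ = (grp s c T τ').connectedComponentMk _
  rw [SimpleGraph.ConnectedComponent.eq]
  exact hab

/-- **Substep groups**, with the bound for the diameter of the whole family. -/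
theorem exists_groups' [DecidableEq κ] (T : Finset κ) (m : ℕ) {A A2 : ℝ} (hm : T.card ≤ m + 1)
    (h2 : 2 ≤ T.card) (hA2 : 2 ≤ A2) (hA : A2 ^ (m + 3) ≤ A) (hne : ∀ a ∈ T, (c a).Nonempty)
    (hdis : ∀ a ∈ T, ∀ b ∈ T, a ≠ b → ∀ i ∈ c a, ∀ j ∈ c b, s i ≠ s j)
    (hiso : ∀ a ∈ T, ∀ b ∈ T, a ≠ b → ∀ i ∈ c a, ∀ i' ∈ c a, ∀ i'' ∈ c a, ∀ j ∈ c b,
      A * |s i - s i'| ≤ |s i'' - s j|) :
    ∃ ρ : ℝ, 0 < ρ ∧ ∃ lab : κ → κ, (∀ a ∈ T, lab a ∈ T) ∧ (∃ a ∈ T, ∃ b ∈ T, lab a ≠ lab b) ∧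
      (∀ a ∈ T, ∀ b ∈ T, lab a ≠ lab b → ∀ i ∈ c a, ∀ j ∈ c b, ρ ≤ |s i - s j|) ∧
      (∀ a ∈ T, ∀ b ∈ T, lab a = lab b → ∀ i ∈ c a, ∀ j ∈ c b, |s i - s j| ≤ 2 * m / A2 * ρ) ∧
      (∀ a ∈ T, ∀ b ∈ T, ∀ i ∈ c a, ∀ j ∈ c b, |s i - s j| ≤ (2 * m + 1) * A2 ^ m * ρ) := by
  classical
  have hA20 : 0 < A2 := by linarith
  have hA0 : 0 < A := (pow_pos hA20 _).trans_le hA
  have hm1 : 1 ≤ m := by omega
  -- a big threshold
  obtain ⟨D, hD⟩ : ∃ D : ℝ, ∀ a ∈ T, ∀ b ∈ T, ∀ i ∈ c a, ∀ j ∈ c b, |s i - s j| < D := by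
    refine ⟨∑ a ∈ T, ∑ b ∈ T, ∑ i ∈ c a, ∑ j ∈ c b, |s i - s j| + 1, ?_⟩
    intro a ha b hb i hi j hj
    have h1 : |s i - s j| ≤ ∑ j ∈ c b, |s i - s j| :=
      Finset.single_le_sum (f := fun j => |s i - s j|) (fun _ _ => abs_nonneg _) hj
    have h3 : ∑ j ∈ c b, |s i - s j| ≤ ∑ i ∈ c a, ∑ j ∈ c b, |s i - s j| :=
      Finset.single_le_sum (f := fun i => ∑ j ∈ c b, |s i - s j|)
        (fun _ _ => Finset.sum_nonneg fun _ _ => abs_nonneg _) hi
    have h4 : ∑ i ∈ c a, ∑ j ∈ c b, |s i - s j| ≤ ∑ b ∈ T, ∑ i ∈ c a, ∑ j ∈ c b, |s i - s j| :=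
      Finset.single_le_sum (f := fun b => ∑ i ∈ c a, ∑ j ∈ c b, |s i - s j|)
        (fun _ _ => Finset.sum_nonneg fun _ _ => Finset.sum_nonneg fun _ _ => abs_nonneg _) hb
    have h5 : ∑ b ∈ T, ∑ i ∈ c a, ∑ j ∈ c b, |s i - s j| ≤
        ∑ a ∈ T, ∑ b ∈ T, ∑ i ∈ c a, ∑ j ∈ c b, |s i - s j| :=
      Finset.single_le_sum (f := fun a => ∑ b ∈ T, ∑ i ∈ c a, ∑ j ∈ c b, |s i - s j|)
        (fun _ _ => Finset.sum_nonneg fun _ _ => Finset.sum_nonneg fun _ _ =>
          Finset.sum_nonneg fun _ _ => abs_nonneg _) ha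
    linarith
  obtain ⟨a0, ha0, b0, hb0, hab0⟩ : ∃ a ∈ T, ∃ b ∈ T, a ≠ b := by
    obtain ⟨a, b, ha, hb, hab⟩ := Finset.one_lt_card_iff.1 (by omega : 1 < T.card)
    exact ⟨a, ha, b, hb, hab⟩
  obtain ⟨i0, hi0⟩ := hne a0 ha0
  obtain ⟨j0, hj0⟩ := hne b0 hb0
  have hD0 : 0 < D := (abs_nonneg _).trans_lt (hD a0 ha0 b0 hb0 i0 hi0 j0 hj0)
  -- a small threshold
  obtain ⟨d, hd0, hd⟩ : ∃ d : ℝ, 0 < d ∧ ∀ a ∈ T, ∀ b ∈ T, a ≠ b → ∀ i ∈ c a, ∀ j ∈ c b,
      d ≤ |s i - s j| := by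
    have hfin : ((T ×ˢ T).filter (fun p => p.1 ≠ p.2)).biUnion
        (fun p => ((c p.1) ×ˢ (c p.2)).image fun q => |s q.1 - s q.2|) |>.Nonempty := by
      refine ⟨|s i0 - s j0|, ?_⟩
      simp only [Finset.mem_biUnion, Finset.mem_filter, Finset.mem_product, Finset.mem_image]
      exact ⟨(a0, b0), ⟨⟨ha0, hb0⟩, hab0⟩, (i0, j0), ⟨hi0, hj0⟩, rfl⟩
    set F := ((T ×ˢ T).filter (fun p => p.1 ≠ p.2)).biUnion
        (fun p => ((c p.1) ×ˢ (c p.2)).image fun q => |s q.1 - s q.2|) with hF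
    obtain ⟨μ, hμ⟩ : ∃ μ, μ = F.min' hfin := ⟨_, rfl⟩
    refine ⟨F.min' hfin, ?_, ?_⟩
    · have hmem := F.min'_mem hfin
      rw [← hμ] at hmem ⊢
      rw [hF] at hmem
      simp only [Finset.mem_biUnion, Finset.mem_filter, Finset.mem_product,
        Finset.mem_image] at hmem
      obtain ⟨p, ⟨⟨hp1, hp2⟩, hp3⟩, q, ⟨hq1, hq2⟩, hq3⟩ := hmem
      rw [← hq3]
      exact abs_pos.2 (sub_ne_zero.2 (hdis _ hp1 _ hp2 hp3 _ hq1 _ hq2))
    · intro a ha b hb hab i hi j hj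
      apply F.min'_le
      rw [hF]
      simp only [Finset.mem_biUnion, Finset.mem_filter, Finset.mem_product, Finset.mem_image]
      exact ⟨(a, b), ⟨⟨ha, hb⟩, hab⟩, (i, j), ⟨hi, hj⟩, rfl⟩
  -- thresholds `D / A2 ^ k`
  set τ : ℕ → ℝ := fun k => D / A2 ^ k with hτ
  have hτ0 : ∀ k, 0 < τ k := fun k => div_pos hD0 (pow_pos hA20 _)
  have hτs : ∀ k, τ (k + 1) = τ k / A2 := fun k => by
    simp only [hτ, pow_succ]; field_simp
  have hτa : ∀ k l, k ≤ l → τ l ≤ τ k := by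
    intro k l hkl
    simp only [hτ]
    exact div_le_div_of_nonneg_left hD0.le (pow_pos hA20 _)
      (pow_le_pow_right₀ (by linarith) hkl)
  have hN0 : ncomp s c T (τ 0) = 1 := by
    unfold ncomp
    rw [Nat.card_eq_one_iff_unique]
    refine ⟨⟨?_⟩, ⟨(grp s c T (τ 0)).connectedComponentMk ⟨a0, ha0⟩⟩⟩
    intro x y
    induction x using SimpleGraph.ConnectedComponent.ind with
    | _ v =>
      induction y using SimpleGraph.ConnectedComponent.ind with
      | _ w =>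
        rw [SimpleGraph.ConnectedComponent.eq]
        by_cases hvw : v = w
        · rw [hvw]
        · apply SimpleGraph.Adj.reachable
          obtain ⟨i, hi⟩ := hne _ v.2
          obtain ⟨j, hj⟩ := hne _ w.2
          exact ⟨hvw, i, hi, j, hj, by
            have := hD _ v.2 _ w.2 i hi j hj
            simpa [hτ] using this⟩
  obtain ⟨L, hL⟩ : ∃ L : ℕ, τ L < d := by
    obtain ⟨L, hL⟩ := pow_unbounded_of_one_lt (D / d) (by linarith : (1 : ℝ) < A2)
    refine ⟨L, ?_⟩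
    simp only [hτ]
    rw [div_lt_iff₀ (pow_pos hA20 _)]
    rw [div_lt_iff₀ hd0] at hL
    linarith
  have hadj : ∀ v w : T, v ≠ w → ¬ (grp s c T (τ L)).Reachable v w := by
    intro v w hvw hr
    obtain ⟨p⟩ := hr
    cases p with
    | nil => exact hvw rfl
    | cons h _ =>
      obtain ⟨h1, x, hx, y, hy, hxy⟩ :=
        (show _ ≠ _ ∧ ∃ i ∈ c _, ∃ j ∈ c _, |s i - s j| < τ L from h)
      have := hd _ (Subtype.property _) _ (Subtype.property _)
        (fun he => h1 (Subtype.ext he)) x hx y hy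
      linarith
  have hNL : 2 ≤ ncomp s c T (τ L) := by
    unfold ncomp
    have hne' : (grp s c T (τ L)).connectedComponentMk ⟨a0, ha0⟩ ≠
        (grp s c T (τ L)).connectedComponentMk ⟨b0, hb0⟩ := by
      intro h
      rw [SimpleGraph.ConnectedComponent.eq] at h
      exact hadj _ _ (fun he => hab0 (congrArg Subtype.val he)) h
    exact Finite.one_lt_card_iff_nontrivial.2 ⟨_, _, hne'⟩
  -- the last connected threshold
  have hex : ∃ k, 2 ≤ ncomp s c T (τ k) := ⟨L, hNL⟩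
  set k1 := Nat.find hex with hk1
  have hk1s : 2 ≤ ncomp s c T (τ k1) := Nat.find_spec hex
  have hk1p : k1 ≠ 0 := by
    intro h0
    rw [h0, hN0] at hk1s
    omega
  obtain ⟨k0, hk0⟩ : ∃ k0, k1 = k0 + 1 := Nat.exists_eq_succ_of_ne_zero hk1p
  have hk0s : ncomp s c T (τ k0) = 1 := by
    have h1 : ¬ 2 ≤ ncomp s c T (τ k0) := Nat.find_min hex (by omega)
    have h3 : ncomp s c T (τ 0) ≤ ncomp s c T (τ k0) := ncomp_anti s c T (hτa 0 k0 (Nat.zero_le _))
    omega
  -- pigeonhole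
  obtain ⟨k, hk, hkm, hkeq⟩ : ∃ k, k1 ≤ k ∧ k < k1 + m ∧
      ncomp s c T (τ (k + 1)) = ncomp s c T (τ k) := by
    by_contra hcon
    push Not at hcon
    have hind : ∀ l ≤ m, 2 + l ≤ ncomp s c T (τ (k1 + l)) := by
      intro l
      induction l with
      | zero => intro _; simpa using hk1s
      | succ l ih =>
        intro hl
        have h1 := ih (by omega)
        have h3 := hcon (k1 + l) (by omega) (by omega)
        have h4 : ncomp s c T (τ (k1 + l)) ≤ ncomp s c T (τ (k1 + l + 1)) :=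
          ncomp_anti s c T (hτa _ _ (Nat.le_succ _))
        have h5 : k1 + (l + 1) = k1 + l + 1 := by ring
        rw [h5]
        omega
    have h1 := hind m le_rfl
    have h3 := ncomp_le s c T (τ (k1 + m))
    omega
  -- child diameters
  have hlink : ∀ a ∈ T, ∃ b ∈ T, a ≠ b ∧ Lnk s c (τ k0) a b := by
    intro a ha
    obtain ⟨b, hb, hab⟩ : ∃ b ∈ T, b ≠ a := Finset.exists_mem_ne (by omega) a
    have hr : (grp s c T (τ k0)).Reachable ⟨a, ha⟩ ⟨b, hb⟩ := by
      unfold ncomp at hk0s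
      rw [Nat.card_eq_one_iff_unique] at hk0s
      have := hk0s.1.elim ((grp s c T (τ k0)).connectedComponentMk ⟨a, ha⟩)
        ((grp s c T (τ k0)).connectedComponentMk ⟨b, hb⟩)
      rwa [SimpleGraph.ConnectedComponent.eq] at this
    obtain ⟨p⟩ := hr
    cases p with
    | nil => exact absurd rfl hab
    | @cons _ v _ h _ =>
      obtain ⟨h1, h3⟩ := (show _ ≠ _ ∧ Lnk s c (τ k0) _ _ from h)
      exact ⟨v, v.2, fun he => h1 (Subtype.ext he), h3⟩
  have hW : ∀ a ∈ T, ∀ i ∈ c a, ∀ i' ∈ c a, |s i - s i'| ≤ τ k / A2 ^ 3 := by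
    intro a ha i hi i' hi'
    obtain ⟨b, hb, hab, x, hx, y, hy, hxy⟩ := hlink a ha
    have h1 := hiso a ha b hb hab i hi i' hi' x hx y hy
    have h3 : A2 ^ (m + 3) * |s i - s i'| ≤ τ k0 :=
      (mul_le_mul_of_nonneg_right hA (abs_nonneg _)).trans (h1.trans hxy.le)
    have h4 : τ k0 = τ k * A2 ^ (k - k0) := by
      simp only [hτ]
      have : k = k0 + (k - k0) := by omega
      rw [div_mul_eq_mul_div, eq_div_iff (pow_pos hA20 _).ne', div_mul_eq_mul_div,
        div_eq_iff (pow_pos hA20 _).ne']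
      nth_rewrite 1 [this]
      rw [pow_add]
      ring
    have h5 : A2 ^ (k - k0) ≤ A2 ^ m := pow_le_pow_right₀ (by linarith) (by omega)
    rw [le_div_iff₀ (pow_pos hA20 _)]
    have h6 : A2 ^ m * (|s i - s i'| * A2 ^ 3) ≤ A2 ^ m * τ k := by
      calc A2 ^ m * (|s i - s i'| * A2 ^ 3) = A2 ^ (m + 3) * |s i - s i'| := by ring
        _ ≤ τ k * A2 ^ (k - k0) := by rw [← h4]; exact h3
        _ ≤ τ k * A2 ^ m := by gcongr
        _ = _ := by ring
    exact le_of_mul_le_mul_left h6 (pow_pos hA20 _)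
  -- the labels
  have hout : ∀ C : (grp s c T (τ k)).ConnectedComponent, ∃ v : T,
      (grp s c T (τ k)).connectedComponentMk v = C := by
    intro C
    induction C using SimpleGraph.ConnectedComponent.ind with
    | _ v => exact ⟨v, rfl⟩
  choose r hr using hout
  obtain ⟨lab, hlab⟩ : ∃ lab : κ → κ, ∀ a (ha : a ∈ T),
      lab a = (r ((grp s c T (τ k)).connectedComponentMk ⟨a, ha⟩) : κ) :=
    ⟨fun a => if h : a ∈ T then (r ((grp s c T (τ k)).connectedComponentMk ⟨a, h⟩) : κ) else a,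
      fun a ha => dif_pos ha⟩
  refine ⟨τ k, hτ0 k, lab, ?_, ?_, ?_, ?_, ?_⟩
  · intro a ha
    rw [hlab a ha]
    exact Subtype.property _
  · have h1 : 2 ≤ ncomp s c T (τ k) := hk1s.trans (ncomp_anti s c T (hτa _ _ hk))
    unfold ncomp at h1
    obtain ⟨C, C', hCC⟩ := Finite.one_lt_card_iff_nontrivial.1 (by omega :
      1 < Nat.card (grp s c T (τ k)).ConnectedComponent)
    refine ⟨r C, (r C).2, r C', (r C').2, ?_⟩
    rw [hlab _ (r C).2, hlab _ (r C').2]
    intro he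
    have he' := Subtype.ext he
    apply hCC
    have e1 : (grp s c T (τ k)).connectedComponentMk (r C) = C := hr C
    have e2 : (grp s c T (τ k)).connectedComponentMk (r C') = C' := hr C'
    have e3 := congrArg (grp s c T (τ k)).connectedComponentMk he'
    have e4 := (hr _).symm.trans (e3.trans (hr _))
    rw [← e1, ← e2]
    exact e4
  · intro a ha b hb hab i hi j hj
    rw [hlab a ha, hlab b hb] at hab
    by_contra hlt
    push Not at hlt
    apply hab
    by_cases hab' : a = b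
    · subst hab'; rfl
    · have : (grp s c T (τ k)).connectedComponentMk ⟨a, ha⟩ =
          (grp s c T (τ k)).connectedComponentMk ⟨b, hb⟩ := by
        rw [SimpleGraph.ConnectedComponent.eq]
        apply SimpleGraph.Adj.reachable
        exact ⟨fun he => hab' (congrArg Subtype.val he), i, hi, j, hj, hlt⟩
      rw [this]
  · intro a ha b hb hab i hi j hj
    rw [hlab a ha, hlab b hb] at hab
    have he := Subtype.ext hab
    have e3 := congrArg (grp s c T (τ k)).connectedComponentMk he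
    rw [hr, hr, SimpleGraph.ConnectedComponent.eq] at e3
    have e4 := reach_of_ncomp s c T (hτa k (k + 1) (Nat.le_succ _)) hkeq e3
    have h1 := reach_dist s c hm (hτ0 (k + 1)).le
      (div_pos (hτ0 k) (pow_pos hA20 3)).le hW e4 i hi j hj
    have hm' : (1 : ℝ) ≤ m := by exact_mod_cast hm1
    have h3 : ((m : ℝ) + 1) * (τ k / A2 ^ 3) ≤ m * (τ k / A2) := by
      have key : ∀ x : ℝ, 0 < x → x / A2 ^ 3 ≤ x / A2 / 4 := by
        intro x hx
        rw [div_div]
        apply div_le_div_of_nonneg_left hx.le (by positivity)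
        nlinarith [mul_pos hA20 hA20,
          mul_nonneg (by linarith : 0 ≤ A2 - 2) (by linarith : 0 ≤ A2 + 2)]
      have h4 := key (τ k) (hτ0 k)
      have h5 : 0 < τ k / A2 := div_pos (hτ0 k) hA20
      nlinarith
    calc |s i - s j| ≤ m * τ (k + 1) + (m + 1) * (τ k / A2 ^ 3) := h1
      _ ≤ m * (τ k / A2) + m * (τ k / A2) := by rw [hτs]; linarith
      _ = 2 * m / A2 * τ k := by ring
  · intro a ha b hb i hi j hj
    have hr : (grp s c T (τ k0)).Reachable ⟨a, ha⟩ ⟨b, hb⟩ := by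
      unfold ncomp at hk0s
      rw [Nat.card_eq_one_iff_unique] at hk0s
      have := hk0s.1.elim ((grp s c T (τ k0)).connectedComponentMk ⟨a, ha⟩)
        ((grp s c T (τ k0)).connectedComponentMk ⟨b, hb⟩)
      rwa [SimpleGraph.ConnectedComponent.eq] at this
    have h1 := reach_dist s c hm (hτ0 k0).le
      (div_pos (hτ0 k) (pow_pos hA20 3)).le hW hr i hi j hj
    have h4 : τ k0 = τ k * A2 ^ (k - k0) := by
      simp only [hτ]
      have : k = k0 + (k - k0) := by omega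
      rw [div_mul_eq_mul_div, eq_div_iff (pow_pos hA20 _).ne', div_mul_eq_mul_div,
        div_eq_iff (pow_pos hA20 _).ne']
      nth_rewrite 1 [this]
      rw [pow_add]
      ring
    have h5 : A2 ^ (k - k0) ≤ A2 ^ m := pow_le_pow_right₀ (by linarith) (by omega)
    have h6 : τ k0 ≤ A2 ^ m * τ k := by
      rw [h4, mul_comm]
      exact mul_le_mul_of_nonneg_right h5 (hτ0 k).le
    have h7 : τ k / A2 ^ 3 ≤ A2 ^ m * τ k := by
      have h8 : τ k / A2 ^ 3 ≤ τ k := div_le_self (hτ0 k).le (one_le_pow₀ (by linarith))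
      have h9 : 1 * τ k ≤ A2 ^ m * τ k :=
        mul_le_mul_of_nonneg_right (one_le_pow₀ (by linarith)) (hτ0 k).le
      linarith
    have hm0 : (0 : ℝ) ≤ m := Nat.cast_nonneg m
    nlinarith [mul_le_mul_of_nonneg_left h6 hm0,
      mul_le_mul_of_nonneg_left h7 (by linarith : (0 : ℝ) ≤ m + 1)]

/-- **Substep groups.** -/
theorem exists_groups [DecidableEq κ] (T : Finset κ) (m : ℕ) {A A2 : ℝ} (hm : T.card ≤ m + 1)
    (h2 : 2 ≤ T.card) (hA2 : 2 ≤ A2) (hA : A2 ^ (m + 3) ≤ A) (hne : ∀ a ∈ T, (c a).Nonempty)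
    (hdis : ∀ a ∈ T, ∀ b ∈ T, a ≠ b → ∀ i ∈ c a, ∀ j ∈ c b, s i ≠ s j)
    (hiso : ∀ a ∈ T, ∀ b ∈ T, a ≠ b → ∀ i ∈ c a, ∀ i' ∈ c a, ∀ i'' ∈ c a, ∀ j ∈ c b,
      A * |s i - s i'| ≤ |s i'' - s j|) :
    ∃ ρ : ℝ, 0 < ρ ∧ ∃ lab : κ → κ, (∀ a ∈ T, lab a ∈ T) ∧ (∃ a ∈ T, ∃ b ∈ T, lab a ≠ lab b) ∧
      (∀ a ∈ T, ∀ b ∈ T, lab a ≠ lab b → ∀ i ∈ c a, ∀ j ∈ c b, ρ ≤ |s i - s j|) ∧
      (∀ a ∈ T, ∀ b ∈ T, lab a = lab b → ∀ i ∈ c a, ∀ j ∈ c b, |s i - s j| ≤ 2 * m / A2 * ρ) := by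
  obtain ⟨ρ, h0, lab, h1, h3, h4, h5, -⟩ :=
    exists_groups' s c T m hm h2 hA2 hA hne hdis hiso
  exact ⟨ρ, h0, lab, h1, h3, h4, h5⟩

/-- The hypotheses of `exists_groups` for a family `T` of children. -/
structure Fam (T : Finset κ) (m : ℕ) (A : ℝ) : Prop where
  card : T.card ≤ m + 1
  ne : ∀ a ∈ T, (c a).Nonempty
  dis : ∀ a ∈ T, ∀ b ∈ T, a ≠ b → ∀ i ∈ c a, ∀ j ∈ c b, s i ≠ s j
  iso : ∀ a ∈ T, ∀ b ∈ T, a ≠ b → ∀ i ∈ c a, ∀ i' ∈ c a, ∀ i'' ∈ c a, ∀ j ∈ c b,
    A * |s i - s i'| ≤ |s i'' - s j|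

theorem Fam.mono {T T' : Finset κ} {m : ℕ} {A : ℝ} (h : Fam s c T m A) (hT : T' ⊆ T) :
    Fam s c T' m A :=
  ⟨(Finset.card_le_card hT).trans h.card, fun a ha => h.ne a (hT ha),
    fun a ha b hb => h.dis a (hT ha) b (hT hb), fun a ha b hb => h.iso a (hT ha) b (hT hb)⟩

/-- `lab` splits `T` into at least two groups, with mutual distances `≥ ρ` and diameters
`≤ κ₀ ρ`. -/
structure Split (T : Finset κ) (κ₀ ρ : ℝ) (lab : κ → κ) : Prop where
  pos : 0 < ρ
  mem : ∀ a ∈ T, lab a ∈ T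
  two : ∃ a ∈ T, ∃ b ∈ T, lab a ≠ lab b
  sep : ∀ a ∈ T, ∀ b ∈ T, lab a ≠ lab b → ∀ i ∈ c a, ∀ j ∈ c b, ρ ≤ |s i - s j|
  tight : ∀ a ∈ T, ∀ b ∈ T, lab a = lab b → ∀ i ∈ c a, ∀ j ∈ c b, |s i - s j| ≤ κ₀ * ρ

theorem Fam.split [DecidableEq κ] {T : Finset κ} {m : ℕ} {A A2 : ℝ} (h : Fam s c T m A)
    (h2 : 2 ≤ T.card) (hA2 : 2 ≤ A2) (hA : A2 ^ (m + 3) ≤ A) :
    ∃ ρ lab, Split s c T (2 * m / A2) ρ lab := by
  obtain ⟨ρ, h0, lab, h1, h3, h4, h5⟩ :=
    exists_groups s c T m h.card h2 hA2 hA h.ne h.dis h.iso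
  exact ⟨ρ, lab, h0, h1, h3, h4, h5⟩

/-- **Recursion along the substeps.** If the functional `Φ` (on families of children) satisfies
`Φ S ≤ ∑_groups Φ + e` for every splitting of every subfamily `S ⊆ T` with at least two members,
then `Φ T ≤ ∑_{a ∈ T} Φ {a} + (#T - 1) e`. -/
theorem sub_rec [DecidableEq κ] {T : Finset κ} {m : ℕ} {A A2 : ℝ} (h : Fam s c T m A)
    (hT : T.Nonempty) (hA2 : 2 ≤ A2) (hA : A2 ^ (m + 3) ≤ A) (Φ : Finset κ → ℝ) {e : ℝ} (he0 : 0 ≤ e)
    (hstep : ∀ S ⊆ T, 2 ≤ S.card → ∀ ρ lab, Split s c S (2 * m / A2) ρ lab →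
      Φ S ≤ ∑ a ∈ S.image lab, Φ (S.filter fun b => lab b = a) + e) :
    Φ T ≤ ∑ a ∈ T, Φ {a} + (T.card - 1 : ℝ) * e := by
  have main : ∀ (n : ℕ) (S : Finset κ), S ⊆ T → S.Nonempty → S.card = n →
      Φ S ≤ ∑ a ∈ S, Φ {a} + (S.card - 1 : ℝ) * e := by
    intro n
    induction n using Nat.strong_induction_on with
    | _ n ih =>
      intro S hS hne hn
      rcases Nat.lt_or_ge S.card 2 with h1 | h2
      · have h1' : S.card = 1 := by
          have := hne.card_pos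
          omega
        obtain ⟨a, ha⟩ := Finset.card_eq_one.1 h1'
        subst ha
        simp
      · obtain ⟨ρ, lab, hsp⟩ := (h.mono s c hS).split s c h2 hA2 hA
        have hst := hstep S hS h2 ρ lab hsp
        have hg : ∀ a ∈ S.image lab, Φ (S.filter fun b => lab b = a) ≤
            ∑ b ∈ S.filter (fun b => lab b = a), Φ {b} +
              ((S.filter fun b => lab b = a).card - 1 : ℝ) * e := by
          intro a ha
          obtain ⟨a', ha', rfl⟩ := Finset.mem_image.1 ha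
          obtain ⟨x, hx, y, hy, hxy⟩ := hsp.two
          refine ih _ ?_ _ ((Finset.filter_subset _ _).trans hS) ⟨a', by simp [ha']⟩ rfl
          rw [← hn]
          apply Finset.card_lt_card
          refine ⟨Finset.filter_subset _ _, ?_⟩
          intro hsub
          have e1 := (Finset.mem_filter.1 (hsub hx)).2
          have e2 := (Finset.mem_filter.1 (hsub hy)).2
          exact hxy (e1.trans e2.symm)
        have hsum := Finset.sum_le_sum hg
        rw [Finset.sum_add_distrib] at hsum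
        have e1 : ∑ a ∈ S.image lab, ∑ b ∈ S.filter (fun b => lab b = a), Φ {b} =
            ∑ a ∈ S, Φ {a} :=
          Finset.sum_fiberwise_of_maps_to (fun b hb => Finset.mem_image_of_mem _ hb) _
        have e2 : ∑ a ∈ S.image lab, ((S.filter fun b => lab b = a).card - 1 : ℝ) * e =
            ((S.card : ℝ) - (S.image lab).card) * e := by
          rw [← Finset.sum_mul, Finset.sum_sub_distrib]
          congr 1
          congr 1
          · rw [← Nat.cast_sum]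
            congr 1
            exact (Finset.card_eq_sum_card_image lab S).symm
          · simp
        rw [e1, e2] at hsum
        have he : Φ S ≤ ∑ a ∈ S, Φ {a} + ((S.card : ℝ) - (S.image lab).card) * e + e := by
          linarith
        have hi2 : 2 ≤ (S.image lab).card := by
          obtain ⟨x, hx, y, hy, hxy⟩ := hsp.two
          exact Finset.one_lt_card.2 ⟨lab x, Finset.mem_image_of_mem _ hx, lab y,
            Finset.mem_image_of_mem _ hy, hxy⟩
        have hi3 : (2 : ℝ) ≤ (S.image lab).card := by exact_mod_cast hi2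
        nlinarith [mul_nonneg (by linarith : (0 : ℝ) ≤ (S.image lab).card - 2) he0]
  exact main _ T (Finset.Subset.refl _) hT rfl

end Groups

end Vale.Agent.P112.H491
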