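import Vale.Agent.P112.H646.Basic
import Vale.Agent.P112.H491.Sub

/-!
# P112, chapter (G), `[H]`: laminarity, the children, and `StSub`
-/

open Finset

namespace Vale.Agent.P112.H491

open Vale.Agent.P112.H646

variable {ι : Type} {A : ℝ} {s : ι → ℝ}

theorem mem_ch {P C : Finset ι} : C ∈ ch A s P ↔
    C ≠ P ∧ Iso A s C P ∧ ∀ C' : Finset ι, C' ≠ P → Iso A s C' P → C ⊆ C' → C' = C := by
  classical
  unfold ch
  rw [Finset.mem_filter, Finset.mem_powerset]
  exact ⟨fun h => h.2, fun h => ⟨h.2.1.2.1, h⟩⟩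

/-- the diameter is attained -/
theorem exists_diam {P : Finset ι} (hP : P.Nonempty) : ∃ i0 ∈ P, ∃ j0 ∈ P,
    ∀ i ∈ P, ∀ j ∈ P, |s i - s j| ≤ |s i0 - s j0| := by
  obtain ⟨p, hp, h⟩ := (P ×ˢ P).exists_max_image (fun p => |s p.1 - s p.2|) (hP.product hP)
  rw [Finset.mem_product] at hp
  exact ⟨p.1, hp.1, p.2, hp.2, fun i hi j hj => h (i, j) (Finset.mem_product.2 ⟨hi, hj⟩)⟩

theorem iso_far {P S : Finset ι} (h : Iso A s P S) {k : ι} (hk : k ∈ S) (hkP : k ∉ P) :
    ∀ i ∈ P, ∀ j ∈ P, ∀ i' ∈ P, A * |s i - s j| < |s i' - s k| := by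
  intro i hi j hj i' hi'
  by_contra hcon
  push Not at hcon
  exact hkP (h.2.2 k hk ⟨i, hi, j, hj, i', hi', hcon⟩)

theorem lam_aux {P P' S : Finset ι} (hA : 1 ≤ A) (h : Iso A s P S) (h' : Iso A s P' S)
    {k x y : ι} (hk : k ∈ P) (hk' : k ∈ P') (hx : x ∈ P) (hx' : x ∉ P')
    (hy : y ∈ P') (hy' : y ∉ P) : False := by
  obtain ⟨i, hi, j, hj, hd⟩ := exists_diam (s := s) h.1
  obtain ⟨i', hi', j', hj', hd'⟩ := exists_diam (s := s) h'.1
  have h1 := iso_far h (h'.2.1 hy) hy' i hi j hj k hk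
  have h2 := iso_far h' (h.2.1 hx) hx' i' hi' j' hj' k hk'
  have h3 := hd k hk x hx
  have h4 := hd' k hk' y hy
  have h5 : |s i - s j| ≤ A * |s i - s j| := le_mul_of_one_le_left (abs_nonneg _) hA
  have h6 : |s i' - s j'| ≤ A * |s i' - s j'| := le_mul_of_one_le_left (abs_nonneg _) hA
  linarith

theorem stLam : StLam := by
  intro ι A s P P' S hA h h'
  by_cases hPP : P ⊆ P'
  · exact Or.inl hPP
  · by_cases hPP' : P' ⊆ P
    · exact Or.inr (Or.inl hPP')
    · refine Or.inr (Or.inr ?_)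
      rw [Finset.disjoint_left]
      intro k hk hk'
      obtain ⟨x, hx, hx'⟩ := Finset.not_subset.1 hPP
      obtain ⟨y, hy, hy'⟩ := Finset.not_subset.1 hPP'
      exact lam_aux hA h h' hk hk' hx hx' hy hy'

theorem stLoc : StLoc := by
  intro ι A s C P S hP
  constructor
  · intro h
    refine ⟨h.2.1, h.1, h.2.1.trans hP.2.1, ?_⟩
    intro k hk hn
    exact h.2.2 k (hP.2.2 k hk (near_mono h.2.1 hn)) hn
  · rintro ⟨hCP, h⟩
    exact ⟨h.1, hCP, fun k hk hn => h.2.2 k (hP.2.1 hk) hn⟩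

theorem iso_self {P : Finset ι} (h : P.Nonempty) : Iso A s P P :=
  ⟨h, Finset.Subset.refl _, fun _ hk _ => hk⟩

theorem iso_singleton {P : Finset ι} (hs : Set.InjOn s (P : Set ι)) {k : ι} (hk : k ∈ P) :
    Iso A s {k} P := by
  refine ⟨⟨k, by simp⟩, by simpa using hk, ?_⟩
  rintro j hj ⟨a, ha, b, hb, c, hc, h⟩
  rw [Finset.mem_singleton] at ha hb hc ⊢
  subst ha hb hc
  simp only [sub_self, abs_zero, mul_zero, abs_nonpos_iff, sub_eq_zero] at h
  exact (hs hk hj h).symm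

/-- distinct children are disjoint -/
theorem ch_disj (hA : 1 ≤ A) {P C C' : Finset ι} (hC : C ∈ ch A s P) (hC' : C' ∈ ch A s P)
    (hne : C ≠ C') : Disjoint C C' := by
  rw [mem_ch] at hC hC'
  rcases stLam ι A s C C' P hA hC.2.1 hC'.2.1 with h | h | h
  · exact absurd (hC.2.2 C' hC'.1 hC'.2.1 h).symm hne
  · exact absurd (hC'.2.2 C hC.1 hC.2.1 h) hne
  · exact h

/-- every proper isolated subset is contained in a child -/
theorem exists_ch {P C : Finset ι} (hC : Iso A s C P) (hne : C ≠ P) :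
    ∃ C' ∈ ch A s P, C ⊆ C' := by
  classical
  set F : Finset (Finset ι) := P.powerset.filter fun C' => C' ≠ P ∧ Iso A s C' P ∧ C ⊆ C' with hF
  have hCF : C ∈ F := by
    rw [hF, Finset.mem_filter, Finset.mem_powerset]
    exact ⟨hC.2.1, hne, hC, Finset.Subset.refl _⟩
  obtain ⟨C', hC', hmax⟩ := F.exists_max_image (fun C' => C'.card) ⟨C, hCF⟩
  rw [hF, Finset.mem_filter, Finset.mem_powerset] at hC'
  refine ⟨C', mem_ch.2 ⟨hC'.2.1, hC'.2.2.1, ?_⟩, hC'.2.2.2⟩
  intro C'' h1 h2 h3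
  have h4 : C'' ∈ F := by
    rw [hF, Finset.mem_filter, Finset.mem_powerset]
    exact ⟨h2.2.1, h1, h2, hC'.2.2.2.trans h3⟩
  exact (Finset.eq_of_subset_of_card_le h3 (hmax C'' h4)).symm

theorem ch_cover {P : Finset ι} (hs : Set.InjOn s (P : Set ι)) (h2 : 2 ≤ P.card) {k : ι}
    (hk : k ∈ P) : ∃ C ∈ ch A s P, k ∈ C := by
  have hne : ({k} : Finset ι) ≠ P := by
    rintro rfl
    simp at h2
  obtain ⟨C, hC, h⟩ := exists_ch (iso_singleton (A := A) hs hk) hne
  exact ⟨C, hC, h (by simp)⟩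

theorem ch_U {P : Finset ι} (hs : Set.InjOn s (P : Set ι)) (h2 : 2 ≤ P.card) :
    U (ch A s P) = P := by
  ext k
  rw [mem_U]
  constructor
  · rintro ⟨C, hC, hk⟩
    exact (mem_ch.1 hC).2.1.2.1 hk
  · intro hk
    exact ch_cover hs h2 hk

theorem stCh : StCh := by
  intro ι A s P hA hs h2
  refine ⟨?_, fun C hC C' hC' hne => ch_disj hA hC hC' hne, ch_U hs h2, ?_⟩
  · intro C hC
    obtain ⟨h1, h3, -⟩ := mem_ch.1 hC
    exact ⟨h3.1, h3.2.1, Finset.card_lt_card (h3.2.1.ssubset_of_ne h1)⟩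
  · by_contra hcon
    have hne : P.Nonempty := Finset.card_pos.1 (by omega)
    obtain ⟨k, hk⟩ := hne
    obtain ⟨C, hC, hkC⟩ := ch_cover (A := A) hs h2 hk
    have h1 : (ch A s P).card = 1 := by
      have := Finset.card_pos.2 ⟨C, hC⟩
      omega
    obtain ⟨C', hC'⟩ := Finset.card_eq_one.1 h1
    have h3 : C = C' := by
      rw [hC', Finset.mem_singleton] at hC
      exact hC
    have h4 := ch_U (A := A) hs h2
    rw [hC', ← h3] at h4
    have h5 : U {C} = C := by
      ext j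
      rw [mem_U]
      simp
    rw [h5] at h4
    exact (mem_ch.1 hC).1 h4

theorem stPar : StPar := by
  intro ι A s C P P' S hA hP hP' hC hC'
  obtain ⟨h1, h2, h3⟩ := mem_ch.1 hC
  obtain ⟨h1', h2', h3'⟩ := mem_ch.1 hC'
  have key : ∀ {P P' : Finset ι}, Iso A s P S → Iso A s P' S → C ∈ ch A s P → C ∈ ch A s P' →
      P ⊆ P' → P = P' := by
    intro P P' hP hP' hC hC' hsub
    obtain ⟨h1, h2, h3⟩ := mem_ch.1 hC
    obtain ⟨h1', h2', h3'⟩ := mem_ch.1 hC'
    by_contra hne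
    have h4 : Iso A s P P' := (stLoc ι A s P P' S hP').2 ⟨hsub, hP⟩
    exact h1 (h3' P hne h4 h2.2.1).symm
  rcases stLam ι A s P P' S hA hP hP' with h | h | h
  · exact key hP hP' hC hC' h
  · exact (key hP' hP hC' hC h).symm
  · exfalso
    obtain ⟨k, hk⟩ := h2.1
    exact Finset.disjoint_left.1 h (h2.2.1 hk) (h2'.2.1 hk)

/-- the diameter of a union of children controls the diameter of the node -/
theorem diam_grow (hA : 1 ≤ A) {P : Finset ι} (hs : Set.InjOn s (P : Set ι)) (h2 : 2 ≤ P.card) :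
    ∀ (n : ℕ) (D : Finset (Finset ι)) (d : ℝ), D ⊆ ch A s P → 2 ≤ D.card →
      (ch A s P).card = D.card + n →
      (∀ i ∈ U D, ∀ j ∈ U D, |s i - s j| ≤ d) →
      ∀ i ∈ P, ∀ j ∈ P, |s i - s j| ≤ (3 * A) ^ n * d := by
  classical
  intro n
  induction n with
  | zero =>
    intro D d hD h2D hcard hd i hi j hj
    have hDe : D = ch A s P := Finset.eq_of_subset_of_card_le hD (by omega)
    rw [hDe, ch_U hs h2] at hd
    simpa using hd i hi j hj
  | succ n ih =>
    intro D d hD h2D hcard hd i hi j hj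
    -- the union of `D` is not isolated
    obtain ⟨C1, hC1, hC1D⟩ : ∃ C ∈ ch A s P, C ∉ D := by
      by_contra hcon
      push Not at hcon
      have := Finset.card_le_card (show ch A s P ⊆ D from hcon)
      omega
    obtain ⟨Ca, Cb, hCa, hCb, hab⟩ := Finset.one_lt_card_iff.1 (by omega : 1 < D.card)
    have hUne : (U D).Nonempty := by
      obtain ⟨x, hx⟩ := (mem_ch.1 (hD hCa)).2.1.1
      exact ⟨x, mem_U.2 ⟨Ca, hCa, hx⟩⟩
    have hUP : U D ⊆ P := by
      intro x hx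
      obtain ⟨C, hC, hxC⟩ := mem_U.1 hx
      exact (mem_ch.1 (hD hC)).2.1.2.1 hxC
    have hUneP : U D ≠ P := by
      intro he
      obtain ⟨x, hx⟩ := (mem_ch.1 hC1).2.1.1
      have hxP : x ∈ U D := by rw [he]; exact (mem_ch.1 hC1).2.1.2.1 hx
      obtain ⟨C, hC, hxC⟩ := mem_U.1 hxP
      have hne : C ≠ C1 := fun h => hC1D (h ▸ hC)
      exact Finset.disjoint_left.1 (ch_disj hA (hD hC) hC1 hne) hxC hx
    have hnot : ¬ Iso A s (U D) P := by
      intro hI
      have h3 : Ca ⊆ U D := fun x hx => mem_U.2 ⟨Ca, hCa, hx⟩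
      have h4 : Cb ⊆ U D := fun x hx => mem_U.2 ⟨Cb, hCb, hx⟩
      have h5 := (mem_ch.1 (hD hCa)).2.2 (U D) hUneP hI h3
      obtain ⟨x, hx⟩ := (mem_ch.1 (hD hCb)).2.1.1
      have h6 : x ∈ Ca := by rw [← h5]; exact h4 hx
      exact Finset.disjoint_left.1 (ch_disj hA (hD hCa) (hD hCb) hab) h6 hx
    obtain ⟨k, hkP, hkn, hkU⟩ : ∃ k ∈ P, Near A s (U D) k ∧ k ∉ U D := by
      by_contra hcon
      push Not at hcon
      exact hnot ⟨hUne, hUP, hcon⟩
    obtain ⟨C, hC, hkC⟩ := ch_cover (A := A) hs h2 hkP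
    have hCD : C ∉ D := fun h => hkU (mem_U.2 ⟨C, h, hkC⟩)
    obtain ⟨a, ha, b, hb, x, hx, hxk⟩ := hkn
    have hd0 : 0 ≤ d := (abs_nonneg _).trans (hd a ha b hb)
    have hxk' : |s x - s k| ≤ A * d :=
      hxk.trans (mul_le_mul_of_nonneg_left (hd a ha b hb) (by linarith))
    have hxC : x ∉ C := by
      obtain ⟨C', hC', hxC'⟩ := mem_U.1 hx
      have hne : C' ≠ C := fun h => hCD (h ▸ hC')
      exact Finset.disjoint_left.1 (ch_disj hA (hD hC') hC hne) hxC'
    have hCd : ∀ i ∈ C, ∀ j ∈ C, |s i - s j| ≤ d := by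
      intro i hi j hj
      have h3 := iso_far (mem_ch.1 hC).2.1 (hUP hx) hxC i hi j hj k hkC
      rw [abs_sub_comm] at hxk'
      have h4 : A * |s i - s j| ≤ A * d := h3.le.trans hxk'
      exact le_of_mul_le_mul_left h4 (by linarith)
    have hAd : d ≤ A * d := le_mul_of_one_le_left hd0 hA
    have hcross : ∀ i ∈ C, ∀ j ∈ U D, |s i - s j| ≤ 3 * A * d := by
      intro i hi j hj
      have h3 := hCd i hi k hkC
      have h4 := hd x hx j hj
      rw [abs_sub_comm] at hxk'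
      have h5 : |s i - s j| ≤ |s i - s k| + |s k - s x| + |s x - s j| := by
        calc |s i - s j| = |(s i - s k) + (s k - s x) + (s x - s j)| := by ring_nf
          _ ≤ _ := abs_add_three _ _ _
      linarith
    have hnew : ∀ i ∈ U (insert C D), ∀ j ∈ U (insert C D), |s i - s j| ≤ 3 * A * d := by
      intro i hi j hj
      have h3 : ∀ y, y ∈ U (insert C D) → y ∈ C ∨ y ∈ U D := by
        intro y hy
        obtain ⟨C', hC', hyC⟩ := mem_U.1 hy
        rcases Finset.mem_insert.1 hC' with h | h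
        · exact Or.inl (h ▸ hyC)
        · exact Or.inr (mem_U.2 ⟨C', h, hyC⟩)
      rcases h3 i hi with hi | hi <;> rcases h3 j hj with hj | hj
      · exact (hCd i hi j hj).trans (by linarith)
      · exact hcross i hi j hj
      · rw [abs_sub_comm]; exact hcross j hj i hi
      · exact (hd i hi j hj).trans (by linarith)
    have hcI : (insert C D).card = D.card + 1 := Finset.card_insert_of_notMem hCD
    have h6 := ih (insert C D) (3 * A * d) (Finset.insert_subset hC hD) (by omega) (by omega)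
      hnew i hi j hj
    calc |s i - s j| ≤ (3 * A) ^ n * (3 * A * d) := h6
      _ = (3 * A) ^ (n + 1) * d := by ring

theorem stSub : StSub := by
  classical
  intro ι A A2 m s P hA2 hA hs h2 hcard D hD hD2
  have hm1 : 1 ≤ m := by
    have := Finset.card_le_card hD
    omega
  have hm1' : (1 : ℝ) ≤ m := by exact_mod_cast hm1
  set q : ℝ := 4 * (m + 1) * A2 with hq
  have hq8 : 8 * A2 ≤ q := by
    rw [hq]
    nlinarith
  have hq2 : 2 ≤ q := by linarith
  have hq0 : 0 < q := by linarith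
  have hA1 : 1 ≤ A := (one_le_pow₀ (by linarith : 1 ≤ q)).trans hA
  have hDc : D.card ≤ m + 1 := (Finset.card_le_card hD).trans hcard
  obtain ⟨ρ, hρ, lab, hlab, ⟨a0, ha0, b0, hb0, hab0⟩, hsep, htight, hdiam⟩ :=
    exists_groups' s (fun C : Finset ι => C) D m (A := A) (A2 := q) hDc hD2 hq2 hA
      (fun C hC => (mem_ch.1 (hD hC)).2.1.1)
      (fun C hC C' hC' hne i hi j hj he => by
        have h3 := hs ((mem_ch.1 (hD hC)).2.1.2.1 hi) ((mem_ch.1 (hD hC')).2.1.2.1 hj) he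
        subst h3
        exact Finset.disjoint_left.1 (ch_disj hA1 (hD hC) (hD hC') hne) hi hj)
      (fun C hC C' hC' hne i hi i' hi' i'' hi'' j hj => by
        have hjC : j ∉ C := fun h =>
          Finset.disjoint_left.1 (ch_disj hA1 (hD hC) (hD hC') hne) h hj
        exact (iso_far (mem_ch.1 (hD hC)).2.1 ((mem_ch.1 (hD hC')).2.1.2.1 hj) hjC
          i hi i' hi' i'' hi'').le)
  refine ⟨ρ, hρ, (D.image lab).image (fun a => D.filter fun b => lab b = a), ?_, ?_, ?_, ?_, ?_,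
    ?_, ?_⟩
  · have h3 : 1 < ((D.image lab).image (fun a => D.filter fun b => lab b = a)).card := by
      rw [Finset.one_lt_card]
      refine ⟨D.filter fun b => lab b = lab a0, ?_, D.filter fun b => lab b = lab b0, ?_, ?_⟩
      · exact Finset.mem_image_of_mem _ (Finset.mem_image_of_mem _ ha0)
      · exact Finset.mem_image_of_mem _ (Finset.mem_image_of_mem _ hb0)
      · intro he
        have h4 : a0 ∈ D.filter fun b => lab b = lab a0 := Finset.mem_filter.2 ⟨ha0, rfl⟩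
        rw [he] at h4
        exact hab0 (Finset.mem_filter.1 h4).2
    exact h3
  · ext C
    rw [mem_U]
    constructor
    · rintro ⟨p, hp, hC⟩
      obtain ⟨a, -, rfl⟩ := Finset.mem_image.1 hp
      exact (Finset.mem_filter.1 hC).1
    · intro hC
      exact ⟨D.filter fun b => lab b = lab C,
        Finset.mem_image_of_mem _ (Finset.mem_image_of_mem _ hC), Finset.mem_filter.2 ⟨hC, rfl⟩⟩
  · intro p hp
    obtain ⟨a, ha, rfl⟩ := Finset.mem_image.1 hp
    obtain ⟨C, hC, rfl⟩ := Finset.mem_image.1 ha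
    exact ⟨C, Finset.mem_filter.2 ⟨hC, rfl⟩⟩
  · intro p hp p' hp' hne
    obtain ⟨a, ha, rfl⟩ := Finset.mem_image.1 hp
    obtain ⟨a', ha', rfl⟩ := Finset.mem_image.1 hp'
    rw [Finset.disjoint_left]
    intro C hC hC'
    have h3 := (Finset.mem_filter.1 hC).2
    have h4 := (Finset.mem_filter.1 hC').2
    exact hne (by rw [← h3, ← h4])
  · intro p hp i hi j hj
    obtain ⟨a, ha, rfl⟩ := Finset.mem_image.1 hp
    obtain ⟨C, hC, hiC⟩ := mem_U.1 hi
    obtain ⟨C', hC', hjC⟩ := mem_U.1 hj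
    obtain ⟨hCD, hC⟩ := Finset.mem_filter.1 hC
    obtain ⟨hCD', hC'⟩ := Finset.mem_filter.1 hC'
    have h3 := htight C hCD C' hCD' (hC.trans hC'.symm) i hiC j hjC
    have h4 : A2 * (2 * m / q * ρ) ≤ ρ := by
      have h5 : A2 * (2 * m / q) ≤ 1 := by
        rw [mul_div_assoc', div_le_one hq0, hq]
        nlinarith
      calc A2 * (2 * m / q * ρ) = A2 * (2 * m / q) * ρ := by ring
        _ ≤ 1 * ρ := mul_le_mul_of_nonneg_right h5 hρ.le
        _ = ρ := one_mul _
    exact (mul_le_mul_of_nonneg_left h3 (by linarith)).trans h4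
  · intro p hp p' hp' hne i hi j hj
    obtain ⟨a, ha, rfl⟩ := Finset.mem_image.1 hp
    obtain ⟨a', ha', rfl⟩ := Finset.mem_image.1 hp'
    obtain ⟨C, hC, hiC⟩ := mem_U.1 hi
    obtain ⟨C', hC', hjC⟩ := mem_U.1 hj
    obtain ⟨hCD, hC⟩ := Finset.mem_filter.1 hC
    obtain ⟨hCD', hC'⟩ := Finset.mem_filter.1 hC'
    refine hsep C hCD C' hCD' ?_ i hiC j hjC
    intro he
    exact hne (by rw [← hC, ← hC', he])
  · intro i hi j hj
    obtain ⟨n, hn⟩ : ∃ n, (ch A s P).card = D.card + n :=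
      ⟨(ch A s P).card - D.card, by have := Finset.card_le_card hD; omega⟩
    have hd : ∀ i ∈ U D, ∀ j ∈ U D, |s i - s j| ≤ A * ρ := by
      intro i hi j hj
      obtain ⟨C, hC, hiC⟩ := mem_U.1 hi
      obtain ⟨C', hC', hjC⟩ := mem_U.1 hj
      refine (hdiam C hC C' hC' i hiC j hjC).trans ?_
      apply mul_le_mul_of_nonneg_right _ hρ.le
      have h3 : (2 * m + 1 : ℝ) ≤ q := by
        rw [hq]
        nlinarith
      calc (2 * m + 1 : ℝ) * q ^ m ≤ q * q ^ m :=
            mul_le_mul_of_nonneg_right h3 (pow_pos hq0 _).le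
        _ = q ^ (m + 1) := by ring
        _ ≤ q ^ (m + 3) := pow_le_pow_right₀ (by linarith) (by omega)
        _ ≤ A := hA
    have h3 := diam_grow hA1 hs h2 n D (A * ρ) hD hD2 hn hd i hi j hj
    have h4 : (1 : ℝ) ≤ 3 * A := by linarith
    have hnm : n + 1 ≤ m + 2 := by omega
    calc |s i - s j| ≤ (3 * A) ^ n * (A * ρ) := h3
      _ ≤ (3 * A) ^ n * (3 * A * ρ) := by
          apply mul_le_mul_of_nonneg_left _ (by positivity)
          nlinarith [mul_nonneg (by linarith : (0 : ℝ) ≤ A) hρ.le]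
      _ = (3 * A) ^ (n + 1) * ρ := by ring
      _ ≤ (3 * A) ^ (m + 2) * ρ :=
          mul_le_mul_of_nonneg_right (pow_le_pow_right₀ h4 hnm) hρ.le

end Vale.Agent.P112.H491
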